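import Vale.Agent.P260.R2.H335.Vol

/-!
# Homotopy classes which contain a homeomorphism, by volume
-/

open Metric Set Topology MeasureTheory
open Vale.Agent.P260.H283

namespace Vale.Agent.P260.H335

universe u v

/-- A map onto a metric manifold with a regular measure is homotopic to a homeomorphism if and only
if, for some metric and some measure on the source, it is homotopic to a Hölder map which does not
increase the volume. -/
theorem iff_of_vol {n : ℕ} (hn : 0 < n) {N : Type v} [MetricSpace N] [CompactSpace N]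
    [ChartedSpace (EuclideanSpace ℝ (Fin n)) N] [MeasurableSpace N] [BorelSpace N] {ν : Measure N}
    [IsFiniteMeasure ν] {c s α r₀ : ℝ} (hc : 0 < c) (hα : 0 < α) (hα1 : α ≤ 1) (hr₀ : 0 < r₀)
    (hlow : ∀ y r, 0 < r → r < r₀ → ENNReal.ofReal (c * r ^ s) ≤ ν (ball y r))
    (hup : ∀ y, ∀ δ > 0, ∃ r₁ > 0, ∀ r, 0 < r → r < r₁ →
      ν (closedBall y r) ≤ ENNReal.ofReal (δ * r ^ ((s - 1) / α)))
    {M : Type u} [TopologicalSpace M] (f : C(M, N)) (g : C(N, M))
    (hfg : (f.comp g).Homotopic (ContinuousMap.id N)) :
    (∃ e : M ≃ₜ N, f.Homotopic (e : C(M, N))) ↔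
      ∃ (M' : Type v) (_ : MetricSpace M') (_ : CompactSpace M') (_ : MeasurableSpace M')
        (_ : BorelSpace M') (μ : Measure M') (h : M ≃ₜ M') (f' : C(M', N)) (L : ℝ),
        IsFiniteMeasure μ ∧
        (∀ x r, 0 < r → r < r₀ → ENNReal.ofReal (c * r ^ s) ≤ μ (ball x r)) ∧
        (∀ K : Set M', IsCompact K → ν (f' '' K) ≤ μ K) ∧ μ univ ≤ ν univ ∧
        (∀ x x', dist (f' x) (f' x') ≤ L * dist x x' ^ α) ∧
        f.Homotopic (f'.comp (h : C(M, M'))) := by
  constructor
  · rintro ⟨e, he⟩
    refine ⟨N, inferInstance, inferInstance, inferInstance, inferInstance, ν, e,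
      ContinuousMap.id N, diam (univ : Set N) ^ (1 - α), inferInstance, hlow, fun K _ => ?_, le_rfl,
      fun x x' => ?_, ?_⟩
    · simp
    · show dist x x' ≤ _
      have h1 : dist x x' ≤ diam (univ : Set N) :=
        dist_le_diam_of_mem isCompact_univ.isBounded (mem_univ _) (mem_univ _)
      rcases eq_or_lt_of_le (dist_nonneg (x := x) (y := x')) with h0 | h0
      · rw [← h0, Real.zero_rpow hα.ne', mul_zero]
      · calc dist x x' = dist x x' ^ (1 - α) * dist x x' ^ α := by
              rw [← Real.rpow_add h0, sub_add_cancel, Real.rpow_one]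
          _ ≤ diam (univ : Set N) ^ (1 - α) * dist x x' ^ α :=
              mul_le_mul_of_nonneg_right
                (Real.rpow_le_rpow dist_nonneg h1 (by linarith)) (by positivity)
    · rw [ContinuousMap.id_comp]
      exact he
  · rintro ⟨M', i1, i2, i3, i4, μ, h, f', L, hfin, hlow', hvol, htot, hhol, hhom⟩
    have hpos : μ.IsOpenPosMeasure := by
      refine ⟨fun U hU ⟨x, hx⟩ h0 => ?_⟩
      obtain ⟨ε, hε, hb⟩ := Metric.isOpen_iff.1 hU x hx
      have h1 := hlow' x (min ε r₀ / 2) (by have := lt_min hε hr₀; linarith) (by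
        have := min_le_right ε r₀
        have := lt_min hε hr₀
        linarith)
      have h2 : μ (ball x (min ε r₀ / 2)) = 0 := by
        refine measure_mono_null ((ball_subset_ball ?_).trans hb) h0
        have := min_le_left ε r₀
        have := lt_min hε hr₀
        linarith
      rw [h2, nonpos_iff_eq_zero, ENNReal.ofReal_eq_zero] at h1
      have h3 : 0 < min ε r₀ / 2 := by have := lt_min hε hr₀; linarith
      have : 0 < c * (min ε r₀ / 2) ^ s := by positivity
      linarith
    have hhom' : (f'.comp ((h : C(M, M')).comp g)).Homotopic (ContinuousMap.id N) := by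
      have h1 : ((f'.comp (h : C(M, M'))).comp g).Homotopic (f.comp g) :=
        ContinuousMap.Homotopic.comp hhom.symm (ContinuousMap.Homotopic.refl g)
      exact h1.trans hfg
    have hL : ∀ x x', dist (f' x) (f' x') ≤ max L 0 * dist x x' ^ α := fun x x' =>
      (hhol x x').trans (mul_le_mul_of_nonneg_right (le_max_left _ _) (by positivity))
    have hh := homeo_of_vol (n := n) hn f' ((h : C(M, M')).comp g) hhom' hvol htot hc hα hr₀
      (le_max_right L 0) hlow' hL hup
    refine ⟨h.trans hh.homeomorph, ?_⟩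
    have e1 : ((h.trans hh.homeomorph : M ≃ₜ N) : C(M, N)) = f'.comp (h : C(M, M')) := by
      ext x
      rfl
    rw [e1]
    exact hhom

end Vale.Agent.P260.H335
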