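import Vale.Agent.P260.R2.H335.Unif

/-!
# Limits of nearly volume nonincreasing maps with homotopy sections
-/

open Metric Set Topology MeasureTheory Filter
open Vale.Agent.P260.H283

namespace Vale.Agent.P260.H335

section Lim

variable {n : ℕ} {M N : Type*} [MetricSpace M] [CompactSpace M] [MetricSpace N] [CompactSpace N]
  [ChartedSpace (EuclideanSpace ℝ (Fin n)) N] [MeasurableSpace M] [BorelSpace M]
  [MeasurableSpace N] [BorelSpace N]

omit [BorelSpace N] in
/-- The fibres of the limit are connected. -/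
theorem lim_conn (hn : 0 < n) (F : ℕ → C(M, N)) (G : ℕ → C(N, M))
    (hFG : ∀ k, ((F k).comp (G k)).Homotopic (ContinuousMap.id N)) (f : C(M, N))
    (hlim : ∀ ε > 0, ∀ᶠ k in atTop, ∀ x, dist (F k x) (f x) < ε)
    {μ : Measure M} [IsFiniteMeasure μ] [μ.IsOpenPosMeasure] {ν : Measure N} {e : ℕ → ENNReal}
    (he : Tendsto e atTop (𝓝 0)) (hvol : ∀ k, ∀ K : Set M, IsCompact K → ν (F k '' K) ≤ μ K + e k)
    (htot : μ univ ≤ ν univ) (y : N) : IsPreconnected (f ⁻¹' {y}) := by
  by_contra hny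
  rw [isPreconnected_closed_iff] at hny
  push Not at hny
  obtain ⟨A, B, hA, hB, hAB, hneA, hneB, hemp⟩ := hny
  have hFc : IsClosed (f ⁻¹' {y}) := isClosed_singleton.preimage f.continuous
  have hdis : Disjoint (f ⁻¹' {y} ∩ A) (f ⁻¹' {y} ∩ B) := by
    rw [disjoint_left]
    rintro x ⟨h1, h2⟩ ⟨-, h3⟩
    have : x ∈ f ⁻¹' {y} ∩ (A ∩ B) := ⟨h1, h2, h3⟩
    rw [hemp] at this
    exact this
  obtain ⟨δ, hδ, hd⟩ := hdis.exists_cthickenings (hFc.inter hA).isCompact (hFc.inter hB)
  obtain ⟨ρ, hρ, htube⟩ := exists_tube f.continuous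
    ((Metric.isOpen_thickening (δ := δ) (E := f ⁻¹' {y} ∩ A)).union
      (Metric.isOpen_thickening (δ := δ) (E := f ⁻¹' {y} ∩ B))) (y := y) (by
      intro x hx
      rcases hAB hx with h | h
      · exact Or.inl (Metric.self_subset_thickening hδ _ ⟨hx, h⟩)
      · exact Or.inr (Metric.self_subset_thickening hδ _ ⟨hx, h⟩))
  obtain ⟨R, hR, hU⟩ := stepU (M := M) hn y (half_pos hρ)
  -- the open set
  have hopen : ∀ B : Set M, (f ⁻¹' {y} ∩ B).Nonempty →
      0 < μ (Metric.thickening δ (f ⁻¹' {y} ∩ B) ∩ f ⁻¹' Metric.ball y (R / 2)) := by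
    intro B hneB
    obtain ⟨x₀, hx₀, hx₀B⟩ := hneB
    have hx₀y : f x₀ = y := hx₀
    refine IsOpen.measure_pos μ
      (Metric.isOpen_thickening.inter (Metric.isOpen_ball.preimage f.continuous))
      ⟨x₀, Metric.self_subset_thickening hδ _ ⟨hx₀, hx₀B⟩, ?_⟩
    show f x₀ ∈ Metric.ball y (R / 2)
    rw [hx₀y]
    exact Metric.mem_ball_self (half_pos hR)
  have key : ∀ A B : Set M, ∀ k, (∀ x, dist (F k x) (f x) < R / 2) →
      Disjoint (Metric.cthickening δ (f ⁻¹' {y} ∩ A)) (Metric.cthickening δ (f ⁻¹' {y} ∩ B)) →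
      Metric.ball y R ⊆ F k '' Metric.cthickening δ (f ⁻¹' {y} ∩ A) →
      μ (Metric.thickening δ (f ⁻¹' {y} ∩ B) ∩ f ⁻¹' Metric.ball y (R / 2)) ≤ e k := by
    intro A B k hk hd hon
    set O : Set M := Metric.thickening δ (f ⁻¹' {y} ∩ B) ∩ f ⁻¹' Metric.ball y (R / 2) with hO
    have hOo : IsOpen O :=
      Metric.isOpen_thickening.inter (Metric.isOpen_ball.preimage f.continuous)
    have hsurj : Function.Surjective (F k) := surj (n := n) hn (F k) (G k) (hFG k)
    have himg : F k '' Oᶜ = univ := by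
      refine eq_univ_of_forall fun z => ?_
      obtain ⟨x, rfl⟩ := hsurj z
      by_cases hx : x ∈ O
      · have h1 : F k x ∈ Metric.ball y R := by
          have h2 : dist (f x) y < R / 2 := hx.2
          have h3 := dist_triangle (F k x) (f x) y
          have h4 := hk x
          rw [Metric.mem_ball]
          linarith
        obtain ⟨x', hx', hx'f⟩ := hon h1
        refine ⟨x', fun h => ?_, hx'f⟩
        exact (disjoint_left.1 hd) hx' (Metric.thickening_subset_cthickening _ _ h.1)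
      · exact ⟨x, hx, rfl⟩
    have h1 : ν univ ≤ μ Oᶜ + e k := by
      rw [← himg]
      exact hvol k _ hOo.isClosed_compl.isCompact
    have h2 : μ O + μ Oᶜ = μ univ := measure_add_measure_compl hOo.measurableSet
    have h4 : μ O + μ Oᶜ ≤ e k + μ Oᶜ := by
      rw [h2, add_comm (e k)]
      exact htot.trans h1
    exact ENNReal.le_of_add_le_add_right (measure_ne_top μ _) h4
  have hA0 := hopen A hneA
  have hB0 := hopen B hneB
  have hmin := lt_min hA0 hB0
  obtain ⟨k, hk1, hk2, hk3⟩ := ((hlim _ (half_pos hR)).and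
    ((hlim _ (half_pos hρ)).and (he.eventually (gt_mem_nhds hmin)))).exists
  have hcov : ∀ x, dist (F k x) y < ρ / 2 → x ∈ Metric.cthickening δ (f ⁻¹' {y} ∩ A) ∨
      x ∈ Metric.cthickening δ (f ⁻¹' {y} ∩ B) := by
    intro x hx
    have h1 : dist (f x) y < ρ := by
      have h3 := dist_triangle (f x) (F k x) y
      have h4 := hk2 x
      rw [dist_comm] at h4
      linarith
    exact (htube x h1).imp (fun h => Metric.thickening_subset_cthickening _ _ h)
      (fun h => Metric.thickening_subset_cthickening _ _ h)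
  rcases hU (F k) (G k) (hFG k) Metric.isClosed_cthickening.isCompact
    Metric.isClosed_cthickening.isCompact hd hcov with hon | hon
  · exact absurd (key A B k hk1 hd hon) (not_le.2 (hk3.trans_le (min_le_right _ _)))
  · exact absurd (key B A k hk1 hd.symm hon) (not_le.2 (hk3.trans_le (min_le_left _ _)))

omit [ChartedSpace (EuclideanSpace ℝ (Fin n)) N] in
/-- Preimages of closed sets under nearly volume nonincreasing maps. -/
theorem pre_le {f : M → N} (hf : Continuous f) (hsurj : Function.Surjective f)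
    {μ : Measure M} [IsFiniteMeasure μ] {ν : Measure N} [IsFiniteMeasure ν] {e : ENNReal}
    (hvol : ∀ K : Set M, IsCompact K → ν (f '' K) ≤ μ K + e) (htot : μ univ ≤ ν univ)
    {C : Set N} (hC : IsClosed C) : μ (f ⁻¹' C) ≤ ν C + e := by
  have hcl : ∀ C : Set N, IsClosed C → ν C ≤ μ (f ⁻¹' C) + e := by
    intro C hC
    have := hvol _ (hC.preimage hf).isCompact
    rwa [image_preimage_eq _ hsurj] at this
  have hop : ν Cᶜ ≤ μ (f ⁻¹' Cᶜ) + e := by
    rw [hC.isOpen_compl.measure_eq_iSup_isClosed]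
    refine iSup₂_le fun D hDV => iSup_le fun hD => ?_
    exact (hcl D hD).trans (add_le_add_left (measure_mono (preimage_mono hDV)) _)
  have h1 : ν C + ν Cᶜ = ν univ := measure_add_measure_compl hC.measurableSet
  have h2 : μ (f ⁻¹' C) + μ (f ⁻¹' C)ᶜ = μ univ :=
    measure_add_measure_compl (hC.measurableSet.preimage hf.measurable)
  have h4 : μ (f ⁻¹' C) + μ (f ⁻¹' C)ᶜ ≤ (ν C + e) + μ (f ⁻¹' C)ᶜ := by
    calc μ (f ⁻¹' C) + μ (f ⁻¹' C)ᶜ = μ univ := h2
      _ ≤ ν univ := htot
      _ = ν C + ν Cᶜ := h1.symm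
      _ ≤ ν C + (μ (f ⁻¹' Cᶜ) + e) := by gcongr
      _ = (ν C + e) + μ (f ⁻¹' C)ᶜ := by rw [preimage_compl]; ring
  exact ENNReal.le_of_add_le_add_right (measure_ne_top μ _) h4

omit [MeasurableSpace M] [BorelSpace M] [MeasurableSpace N] [BorelSpace N]
  [ChartedSpace (EuclideanSpace ℝ (Fin n)) N] in
/-- The Hölder maps with given constants form a compact set. -/
theorem holder_compact {L α : ℝ} (hα : 0 < α) :
    IsCompact {f : C(M, N) | ∀ x x', dist (f x) (f x') ≤ L * dist x x' ^ α} := by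
  have hcont : ∀ φ : M → N, (∀ x x', dist (φ x) (φ x') ≤ L * dist x x' ^ α) → Continuous φ := by
    intro φ hφ
    rw [continuous_iff_continuousAt]
    intro x
    rw [ContinuousAt, tendsto_iff_dist_tendsto_zero]
    have h1 : Tendsto (fun z => L * dist z x ^ α) (𝓝 x) (𝓝 0) := by
      have h2 : Continuous fun z : M => L * dist z x ^ α :=
        continuous_const.mul ((continuous_id.dist continuous_const).rpow_const
          fun _ => Or.inr hα.le)
      have h3 := h2.tendsto x
      rwa [dist_self, Real.zero_rpow hα.ne', mul_zero] at h3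
    exact squeeze_zero (fun _ => dist_nonneg) (fun z => hφ z x) h1
  refine ArzelaAscoli.isCompact_of_equicontinuous _ ?_ ?_
  · have himg : ContinuousMap.toFun '' {f : C(M, N) | ∀ x x', dist (f x) (f x') ≤
        L * dist x x' ^ α} = {φ : M → N | ∀ x x', dist (φ x) (φ x') ≤ L * dist x x' ^ α} := by
      ext φ
      constructor
      · rintro ⟨f, hf, rfl⟩
        exact hf
      · intro hφ
        exact ⟨⟨φ, hcont φ hφ⟩, hφ, rfl⟩
    rw [himg]
    refine IsClosed.isCompact ?_
    simp only [setOf_forall]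
    refine isClosed_iInter fun x => isClosed_iInter fun x' => ?_
    exact isClosed_le ((continuous_apply x).dist (continuous_apply x')) continuous_const
  · intro x
    rw [Metric.equicontinuousAt_iff]
    intro ε hε
    have h1 : Tendsto (fun z => L * dist x z ^ α) (𝓝 x) (𝓝 0) := by
      have h2 : Continuous fun z : M => L * dist x z ^ α :=
        continuous_const.mul ((continuous_const.dist continuous_id).rpow_const
          fun _ => Or.inr hα.le)
      have h3 := h2.tendsto x
      rwa [dist_self, Real.zero_rpow hα.ne', mul_zero] at h3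
    obtain ⟨η, hη, hb⟩ := Metric.eventually_nhds_iff.1 (h1.eventually (gt_mem_nhds hε))
    refine ⟨η, hη, fun z hz f => (f.2 x z).trans_lt ?_⟩
    exact hb hz

/-- **Limits.** Uniformly Hölder maps with homotopy sections, nearly volume nonincreasing. -/
theorem homeo_of_lim (hn : 0 < n) {μ : Measure M} [IsFiniteMeasure μ]
    [μ.IsOpenPosMeasure] {ν : Measure N} [IsFiniteMeasure ν]
    (htot : μ univ ≤ ν univ) {c s α r₀ L : ℝ} (hc : 0 < c) (hα : 0 < α) (hr₀ : 0 < r₀)
    (hL : 0 ≤ L) (hlow : ∀ x r, 0 < r → r < r₀ → ENNReal.ofReal (c * r ^ s) ≤ μ (ball x r))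
    (hup : ∀ y, ∀ δ > 0, ∃ r₁ > 0, ∀ r, 0 < r → r < r₁ →
      ν (closedBall y r) ≤ ENNReal.ofReal (δ * r ^ ((s - 1) / α)))
    (hF : ∀ ε : ℝ, 0 < ε → ∃ (f : C(M, N)) (g : C(N, M)),
      (f.comp g).Homotopic (ContinuousMap.id N) ∧
      (∀ x x', dist (f x) (f x') ≤ L * dist x x' ^ α) ∧
      ∀ K : Set M, IsCompact K → ν (f '' K) ≤ μ K + ENNReal.ofReal ε) :
    ∃ e : M ≃ₜ N, ∀ x x', dist (e x) (e x') ≤ L * dist x x' ^ α := by
  have hF' : ∀ k : ℕ, ∃ (f : C(M, N)) (g : C(N, M)),
      (f.comp g).Homotopic (ContinuousMap.id N) ∧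
      (∀ x x', dist (f x) (f x') ≤ L * dist x x' ^ α) ∧
      ∀ K : Set M, IsCompact K → ν (f '' K) ≤ μ K + ENNReal.ofReal (1 / ((k : ℝ) + 1)) :=
    fun k => hF _ (by positivity)
  choose F G hFG hhol hvol using hF'
  obtain ⟨f, hf, φ, hφ, hlim⟩ := (holder_compact (M := M) (N := N) (L := L) hα).tendsto_subseq
    (x := F) (fun k => hhol k)
  have hlim' : ∀ ε > 0, ∀ᶠ k in atTop, ∀ x, dist (F (φ k) x) (f x) < ε := by
    intro ε hε
    have h1 := (Metric.tendsto_nhds.1 hlim) ε hε
    filter_upwards [h1] with k hk x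
    exact (ContinuousMap.dist_apply_le_dist x).trans_lt hk
  have he : Tendsto (fun k => ENNReal.ofReal (1 / ((φ k : ℝ) + 1))) atTop (𝓝 0) := by
    have h1 := tendsto_one_div_add_atTop_nhds_zero_nat (𝕜 := ℝ)
    have h2 := (ENNReal.continuous_ofReal.tendsto 0).comp (h1.comp hφ.tendsto_atTop)
    rw [ENNReal.ofReal_zero] at h2
    exact h2
  have hconn : ∀ y, IsPreconnected (f ⁻¹' {y}) := fun y =>
    lim_conn (n := n) hn (fun k => F (φ k)) (fun k => G (φ k)) (fun k => hFG _) f hlim' he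
      (fun k => hvol _) htot y
  have hsurjk : ∀ k, Function.Surjective (F k) := fun k => surj (n := n) hn (F k) (G k) (hFG k)
  have hle : ∀ y r, 0 < r → μ (f ⁻¹' closedBall y (r / 2)) ≤ ν (closedBall y r) := by
    intro y r hr
    have h1 : ∀ᶠ k in atTop, μ (f ⁻¹' closedBall y (r / 2)) ≤
        ν (closedBall y r) + ENNReal.ofReal (1 / ((φ k : ℝ) + 1)) := by
      filter_upwards [hlim' (r / 2) (half_pos hr)] with k hk
      refine le_trans (measure_mono ?_) (pre_le (F (φ k)).continuous (hsurjk _) (hvol (φ k)) htot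
        isClosed_closedBall)
      intro x hx
      have h2 : dist (f x) y ≤ r / 2 := hx
      show dist (F (φ k) x) y ≤ r
      have h3 := dist_triangle (F (φ k) x) (f x) y
      have h4 := hk x
      linarith
    have h2 : Tendsto (fun k => ν (closedBall y r) + ENNReal.ofReal (1 / ((φ k : ℝ) + 1))) atTop
        (𝓝 (ν (closedBall y r) + 0)) := tendsto_const_nhds.add he
    rw [add_zero] at h2
    exact ge_of_tendsto h2 h1
  have hsurj : Function.Surjective f := by
    intro y
    by_contra hy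
    have hy' : y ∉ range f := fun ⟨x, hx⟩ => hy ⟨x, hx⟩
    have hcl : IsClosed (range f) := (isCompact_range f.continuous).isClosed
    obtain ⟨t, ht, hb⟩ := Metric.mem_nhds_iff.1 (hcl.isOpen_compl.mem_nhds hy')
    obtain ⟨k, hk⟩ := (hlim' t ht).exists
    obtain ⟨x, hx⟩ := hsurjk (φ k) y
    have h1 : f x ∈ Metric.ball y t := by
      rw [Metric.mem_ball, dist_comm, ← hx]
      exact hk x
    exact hb h1 ⟨x, rfl⟩
  have hinj : Function.Injective f := inj_of_ball (μ := μ) (ν := ν) hconn hle hc hα hr₀ hL hlow hf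
    hup
  have hh : IsHomeomorph f := isHomeomorph_iff_continuous_bijective.2 ⟨f.continuous, hinj, hsurj⟩
  exact ⟨hh.homeomorph, hf⟩

end Lim

end Vale.Agent.P260.H335
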