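import Vale.Agent.P260.R2.H335.Vol
import Mathlib.Topology.UniformSpace.Ascoli

/-!
# Limits of nearly volume nonincreasing maps with homotopy sections
-/

open Metric Set Topology MeasureTheory Filter
open Vale.Agent.P260.H283 Vale.Agent.P239.M Vale.Agent.P239.M.Fill

namespace Vale.Agent.P260.H335

section Unif

variable {n : ℕ} {M N : Type*} [MetricSpace M] [CompactSpace M] [MetricSpace N] [CompactSpace N]
  [ChartedSpace (EuclideanSpace ℝ (Fin n)) N]

/-- One of the two sheets is onto a neighbourhood of fixed size. -/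
theorem stepU (hn : 0 < n) (y : N) {ρ : ℝ} (hρ : 0 < ρ) :
    ∃ R > 0, ∀ (f : C(M, N)) (g : C(N, M)), (f.comp g).Homotopic (ContinuousMap.id N) →
      ∀ {U₁ U₂ : Set M}, IsCompact U₁ → IsCompact U₂ → Disjoint U₁ U₂ →
      (∀ x, dist (f x) y < ρ → x ∈ U₁ ∨ x ∈ U₂) → ball y R ⊆ f '' U₁ ∨ ball y R ⊆ f '' U₂ := by
  classical
  obtain ⟨β', hβ', h0, -⟩ := exists_chart (n := n) y Filter.univ_mem
  have hy2 : y ∈ β' '' Q n 2 := ⟨0, mem_closedBall_self (by norm_num), h0⟩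
  have hρ2 : 0 < ρ / 2 := by linarith only [hρ]
  obtain ⟨r, hr, k1, hk1, hconst⟩ := dg_const hn hβ' hρ2
  obtain ⟨r', hr', hmod⟩ := chart_mod hβ' (show (2 : ℝ) < 7 by norm_num) one_pos
  have hball : ∀ z, dist z y < r' → z ∈ β' '' Q n 7 := by
    intro z hz
    obtain ⟨u, hu, huy⟩ := hy2
    obtain ⟨v, hv, hvy, _⟩ := hmod u hu z (by rw [huy, dist_comm]; exact hz)
    exact ⟨v, hv, hvy⟩
  refine ⟨min r r', lt_min hr hr', ?_⟩
  intro f g hfg U₁ U₂ h₁ h₂ hd hcov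
  by_contra hcon
  push Not at hcon
  obtain ⟨hc1, hc2⟩ := hcon
  have key : ∀ U : Set M, IsCompact U → ¬ ball y (min r r') ⊆ f '' U → ∃ κ > 0,
      ∀ c : Ch (ZMod 2) M, Sup (fun l => l.length = n + 1 ∧ Sm κ l) c →
      Sup (fun l => ∀ z ∈ l, ρ / 2 ≤ dist z y) (bd (pf f (c.filter (In U)))) →
      dg β' (pf f (c.filter (In U))) y = 0 := by
    intro U hU hnot
    obtain ⟨z, hz, hzU⟩ := not_subset.1 hnot
    rw [mem_ball] at hz
    have hcl : IsClosed (f '' U) := (hU.image f.continuous).isClosed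
    obtain ⟨t, ht, hb⟩ := Metric.mem_nhds_iff.1 (hcl.isOpen_compl.mem_nhds hzU)
    obtain ⟨k3, hk3, hfar⟩ := dg_far hβ' ht
    obtain ⟨κ, hκ, hsm⟩ := small_map f.continuous (lt_min hk1 hk3)
    refine ⟨κ, hκ, fun c hc hbd => ?_⟩
    have hs : Sup (fun l => (l.length = n + 1 ∧ Sm (min k1 k3) l) ∧ In (f '' U) l)
        (pf f (c.filter (In U))) := by
      refine Sup.pf f ?_
      intro l hl
      rw [Finsupp.support_filter, Finset.mem_filter] at hl
      refine ⟨⟨?_, hsm l (hc l hl.1).2⟩, ?_⟩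
      · rw [List.length_map]; exact (hc l hl.1).1
      · intro a ha
        obtain ⟨w, hw, rfl⟩ := List.mem_map.1 ha
        exact ⟨w, hl.2 w hw, rfl⟩
    rw [← hconst _ y hy2 (Sup.mono (fun l hl => ⟨hl.1.1, sm_mono (min_le_left _ _) hl.1.2⟩) hs)
      hbd z (hz.trans_le (min_le_left _ _))]
    refine (hfar _ z (hball z (hz.trans_le (min_le_right _ _))) (Sup.mono (fun l hl => ?_) hs)).1
    refine ⟨sm_mono (min_le_right _ _) hl.1.2, ?_⟩
    have hne : l ≠ [] := by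
      intro h
      have := hl.1.1
      rw [h] at this
      simp at this
    obtain ⟨w, hw⟩ := List.exists_mem_of_ne_nil l hne
    refine ⟨w, hw, ?_⟩
    by_contra hlt
    rw [not_le] at hlt
    exact hb (mem_ball.2 (by rw [dist_comm]; exact hlt)) (hl.2 w hw)
  obtain ⟨κ₁, hκ₁, H1⟩ := key U₁ h₁ hc1
  obtain ⟨κ₂, hκ₂, H2⟩ := key U₂ h₂ hc2
  obtain ⟨κ₃, hκ₃, H3⟩ := dec f.continuous h₁ h₂ hd hρ hcov hβ'
  obtain ⟨c, hc0, hcs, hc1⟩ := total_one hn f g hfg hβ' (lt_min (lt_min hκ₁ hκ₂) hκ₃)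
  obtain ⟨hb1, hb2, hsum⟩ := H3 c hc0
    (Sup.mono (fun l hl => ⟨hl.1, sm_mono (min_le_right _ _) hl.2⟩) hcs)
  have e1 := H1 c (Sup.mono (fun l hl => ⟨hl.1, sm_mono ((min_le_left _ _).trans
    (min_le_left _ _)) hl.2⟩) hcs) hb1
  have e2 := H2 c (Sup.mono (fun l hl => ⟨hl.1, sm_mono ((min_le_left _ _).trans
    (min_le_right _ _)) hl.2⟩) hcs) hb2
  have e3 := hsum y (q_mono (by norm_num) β' hy2) (by rw [dist_self]; linarith only [hρ])
  rw [hc1 y hy2, e1, e2, add_zero] at e3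
  exact one_ne_zero e3

end Unif

end Vale.Agent.P260.H335
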