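import Vale.Agent.P260.H283.Deg5
import Vale.Agent.P260.R2.H335.Ball
import Mathlib.MeasureTheory.Measure.Regular

/-!
# Volume nonincreasing maps with a homotopy section have connected fibres
-/

open Metric Set Topology MeasureTheory
open Vale.Agent.P260.H283

namespace Vale.Agent.P260.H335

section Irr

variable {n : ℕ} {M N : Type*} [MetricSpace M] [CompactSpace M] [MetricSpace N] [CompactSpace N]
  [ChartedSpace (EuclideanSpace ℝ (Fin n)) N]

/-- If some fibre is disconnected, then a proper closed subset is mapped onto the target. -/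
theorem irr (hn : 0 < n) (f : C(M, N)) (g : C(N, M))
    (hfg : (f.comp g).Homotopic (ContinuousMap.id N)) {y : N}
    (hny : ¬ IsPreconnected (f ⁻¹' {y})) :
    ∃ O : Set M, IsOpen O ∧ O.Nonempty ∧ f '' Oᶜ = univ := by
  have hsurj : Function.Surjective f := surj (n := n) hn f g hfg
  rw [isPreconnected_closed_iff] at hny
  push Not at hny
  obtain ⟨A, B, hA, hB, hAB, hneA, hneB, hemp⟩ := hny
  have hFc : IsClosed (f ⁻¹' {y}) := isClosed_singleton.preimage f.continuous
  have hdis : Disjoint (f ⁻¹' {y} ∩ A) (f ⁻¹' {y} ∩ B) := by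
    rw [disjoint_left]
    rintro x ⟨h1, h2⟩ ⟨-, h3⟩
    have : x ∈ f ⁻¹' {y} ∩ (A ∩ B) := ⟨h1, h2, h3⟩
    rw [hemp] at this
    exact this
  obtain ⟨δ, hδ, hd⟩ := hdis.exists_cthickenings (hFc.inter hA).isCompact (hFc.inter hB)
  have key : ∀ A B : Set M, (f ⁻¹' {y} ∩ B).Nonempty →
      Disjoint (Metric.cthickening δ (f ⁻¹' {y} ∩ A)) (Metric.cthickening δ (f ⁻¹' {y} ∩ B)) →
      ∀ r > 0, Metric.ball y r ⊆ f '' Metric.cthickening δ (f ⁻¹' {y} ∩ A) →
      ∃ O : Set M, IsOpen O ∧ O.Nonempty ∧ f '' Oᶜ = univ := by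
    intro A B hneB hd r hr hon
    obtain ⟨x₀, hx₀, hx₀B⟩ := hneB
    have hx₀y : f x₀ = y := hx₀
    refine ⟨Metric.thickening δ (f ⁻¹' {y} ∩ B) ∩ f ⁻¹' Metric.ball y r,
      Metric.isOpen_thickening.inter (Metric.isOpen_ball.preimage f.continuous),
      ⟨x₀, Metric.self_subset_thickening hδ _ ⟨hx₀, hx₀B⟩, ?_⟩, ?_⟩
    · show f x₀ ∈ Metric.ball y r
      rw [hx₀y]
      exact Metric.mem_ball_self hr
    · refine eq_univ_of_forall fun z => ?_
      obtain ⟨x, rfl⟩ := hsurj z
      by_cases hx : x ∈ Metric.thickening δ (f ⁻¹' {y} ∩ B) ∩ f ⁻¹' Metric.ball y r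
      · obtain ⟨x', hx', hx'f⟩ := hon hx.2
        refine ⟨x', fun h => ?_, hx'f⟩
        exact (disjoint_left.1 hd) hx' (Metric.thickening_subset_cthickening _ _ h.1)
      · exact ⟨x, hx, rfl⟩
  obtain ⟨ρ, hρ, htube⟩ := exists_tube f.continuous
    ((Metric.isOpen_thickening (δ := δ) (E := f ⁻¹' {y} ∩ A)).union
      (Metric.isOpen_thickening (δ := δ) (E := f ⁻¹' {y} ∩ B))) (y := y) (by
      intro x hx
      rcases hAB hx with h | h
      · exact Or.inl (Metric.self_subset_thickening hδ _ ⟨hx, h⟩)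
      · exact Or.inr (Metric.self_subset_thickening hδ _ ⟨hx, h⟩))
  have hcov : ∀ x, dist (f x) y < ρ → x ∈ Metric.cthickening δ (f ⁻¹' {y} ∩ A) ∨
      x ∈ Metric.cthickening δ (f ⁻¹' {y} ∩ B) := fun x hx =>
    (htube x hx).imp (fun h => Metric.thickening_subset_cthickening _ _ h)
      (fun h => Metric.thickening_subset_cthickening _ _ h)
  rcases stepA (n := n) hn f g hfg Metric.isClosed_cthickening.isCompact
    Metric.isClosed_cthickening.isCompact hd hρ hcov with ⟨r, hr, hon⟩ | ⟨r, hr, hon⟩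
  · exact key A B hneB hd r hr hon
  · exact key B A hneA hd.symm r hr hon

end Irr

section Vol

variable {n : ℕ} {M N : Type*} [MetricSpace M] [CompactSpace M] [MetricSpace N] [CompactSpace N]
  [ChartedSpace (EuclideanSpace ℝ (Fin n)) N] [MeasurableSpace M] [BorelSpace M]
  [MeasurableSpace N] [BorelSpace N]


/-- The fibres are connected. -/
theorem conn_of_vol (hn : 0 < n) (f : C(M, N)) (g : C(N, M))
    (hfg : (f.comp g).Homotopic (ContinuousMap.id N)) {μ : Measure M} [IsFiniteMeasure μ]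
    [μ.IsOpenPosMeasure] {ν : Measure N} (hvol : ∀ K : Set M, IsCompact K → ν (f '' K) ≤ μ K)
    (htot : μ univ ≤ ν univ) (y : N) : IsPreconnected (f ⁻¹' {y}) := by
  by_contra hny
  obtain ⟨O, hO, hne, hon⟩ := irr (n := n) hn f g hfg hny
  have h1 : ν univ ≤ μ Oᶜ := by
    rw [← hon]
    exact hvol _ hO.isClosed_compl.isCompact
  have h2 : μ O + μ Oᶜ = μ univ := measure_add_measure_compl hO.measurableSet
  have h3 : 0 < μ O := hO.measure_pos μ hne
  have h4 : μ O + μ Oᶜ ≤ 0 + μ Oᶜ := by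
    rw [h2, zero_add]
    exact htot.trans h1
  have h5 := ENNReal.le_of_add_le_add_right (measure_ne_top μ _) h4
  exact absurd h5 (not_le.2 h3)

omit [ChartedSpace (EuclideanSpace ℝ (Fin n)) N] in
/-- The image of the measure of the source is the measure of the target. -/
theorem map_eq_of_vol {f : M → N} (hf : Continuous f) (hsurj : Function.Surjective f)
    {μ : Measure M} [IsFiniteMeasure μ] {ν : Measure N}
    (hvol : ∀ K : Set M, IsCompact K → ν (f '' K) ≤ μ K) (htot : μ univ ≤ ν univ) :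
    μ.map f = ν := by
  have htot' : ν univ = μ univ := by
    refine le_antisymm ?_ htot
    have := hvol univ isCompact_univ
    rwa [image_univ, hsurj.range_eq] at this
  have hfin : IsFiniteMeasure ν := ⟨by rw [htot']; exact measure_lt_top μ _⟩
  have hcl : ∀ C : Set N, IsClosed C → ν C ≤ μ (f ⁻¹' C) := by
    intro C hC
    have := hvol _ (hC.preimage hf).isCompact
    rwa [image_preimage_eq _ hsurj] at this
  have hop : ∀ V : Set N, IsOpen V → ν V ≤ μ (f ⁻¹' V) := by
    intro V hV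
    rw [hV.measure_eq_iSup_isClosed]
    refine iSup₂_le fun C hCV => iSup_le fun hC => ?_
    exact (hcl C hC).trans (measure_mono (preimage_mono hCV))
  have hcl2 : ∀ C : Set N, IsClosed C → μ (f ⁻¹' C) ≤ ν C := by
    intro C hC
    have h1 : ν C + ν Cᶜ = ν univ := measure_add_measure_compl hC.measurableSet
    have h2 : μ (f ⁻¹' C) + μ (f ⁻¹' C)ᶜ = μ univ :=
      measure_add_measure_compl (hC.measurableSet.preimage hf.measurable)
    have h3 : ν Cᶜ ≤ μ (f ⁻¹' C)ᶜ := hop _ hC.isOpen_compl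
    have h4 : μ (f ⁻¹' C) + μ (f ⁻¹' C)ᶜ ≤ ν C + μ (f ⁻¹' C)ᶜ := by
      rw [h2, ← htot', ← h1]
      exact add_le_add_right h3 _
    exact ENNReal.le_of_add_le_add_right (measure_ne_top μ _) h4
  refine ext_of_generate_finite {s | IsClosed s} ?_ ?_ ?_ ?_
  · rw [BorelSpace.measurable_eq (α := N), borel_eq_generateFrom_isClosed]
  · exact isPiSystem_isClosed
  · intro C hC
    rw [Measure.map_apply hf.measurable (IsClosed.measurableSet hC)]
    exact le_antisymm (hcl2 C hC) (hcl C hC)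
  · rw [Measure.map_apply hf.measurable MeasurableSet.univ, preimage_univ, htot']

/-- Hölder maps. -/
theorem homeo_of_vol (hn : 0 < n) (f : C(M, N)) (g : C(N, M))
    (hfg : (f.comp g).Homotopic (ContinuousMap.id N)) {μ : Measure M} [IsFiniteMeasure μ]
    [μ.IsOpenPosMeasure] {ν : Measure N} (hvol : ∀ K : Set M, IsCompact K → ν (f '' K) ≤ μ K)
    (htot : μ univ ≤ ν univ) {c s α r₀ L : ℝ} (hc : 0 < c) (hα : 0 < α) (hr₀ : 0 < r₀)
    (hL : 0 ≤ L) (hlow : ∀ x r, 0 < r → r < r₀ → ENNReal.ofReal (c * r ^ s) ≤ μ (ball x r))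
    (hhol : ∀ x x', dist (f x) (f x') ≤ L * dist x x' ^ α)
    (hup : ∀ y, ∀ δ > 0, ∃ r₁ > 0, ∀ r, 0 < r → r < r₁ →
      ν (closedBall y r) ≤ ENNReal.ofReal (δ * r ^ ((s - 1) / α))) : IsHomeomorph f := by
  have hsurj : Function.Surjective f := surj (n := n) hn f g hfg
  have hmap := map_eq_of_vol f.continuous hsurj hvol htot
  rw [isHomeomorph_iff_continuous_bijective]
  refine ⟨f.continuous, inj_of_ball (μ := μ) (ν := ν)
    (fun y => conn_of_vol (n := n) hn f g hfg hvol htot y) (fun y r hr => ?_) hc hα hr₀ hL hlow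
    hhol hup, hsurj⟩
  rw [← hmap, Measure.map_apply f.continuous.measurable measurableSet_closedBall]
  exact measure_mono (preimage_mono (closedBall_subset_closedBall (by linarith)))

end Vol

end Vale.Agent.P260.H335
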